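import Vale.Agent.P032X.S5.H843.Core7
import Vale.Agent.P032W.H820.Hull

/-!
# P032: soft walls on straight lines

`Irr.exists_soft`: for every `Irr U T` there is `T'` with `Irr U T'`, `T' x ⊆ T x` on `XX U`, and such
that every point off `XX U` with at least two colours has a dyadic real or imaginary part (`Ln T'`).
`Mn`, `Ctn` pass to `T'`.  `Ln.arc_XX`: an arc of a unit circle on which the palette is constant
with at least two colours lies in `XX U`.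
-/

open Set Filter Topology Metric

noncomputable section

namespace Vale.Agent.P032.Six

namespace Soft

/-- closed dyadic squares -/
def Sq (q : ℕ × ℤ × ℤ) : Set ℂ :=
  {x | (q.2.1 : ℝ) ≤ x.re * 2 ^ q.1 ∧ x.re * 2 ^ q.1 ≤ q.2.1 + 1 ∧
    (q.2.2 : ℝ) ≤ x.im * 2 ^ q.1 ∧ x.im * 2 ^ q.1 ≤ q.2.2 + 1}

/-- open dyadic squares -/
def So (q : ℕ × ℤ × ℤ) : Set ℂ :=
  {x | (q.2.1 : ℝ) < x.re * 2 ^ q.1 ∧ x.re * 2 ^ q.1 < q.2.1 + 1 ∧
    (q.2.2 : ℝ) < x.im * 2 ^ q.1 ∧ x.im * 2 ^ q.1 < q.2.2 + 1}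

/-- dyadic rationals -/
def Dy : Set ℝ := {r | ∃ n : ℕ, ∃ a : ℤ, r * 2 ^ n = a}

theorem countable_Dy : Dy.Countable := by
  have h1 : Dy ⊆ range fun p : ℕ × ℤ => (p.2 : ℝ) / 2 ^ p.1 := by
    rintro r ⟨n, a, h⟩
    refine ⟨(n, a), ?_⟩
    simp only
    rw [← h]
    field_simp
  exact (countable_range _).mono h1

theorem isClosed_Sq (q : ℕ × ℤ × ℤ) : IsClosed (Sq q) := by
  have hr : Continuous fun x : ℂ => x.re * 2 ^ q.1 := by fun_prop
  have hi : Continuous fun x : ℂ => x.im * 2 ^ q.1 := by fun_prop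
  exact (isClosed_le continuous_const hr).inter ((isClosed_le hr continuous_const).inter
    ((isClosed_le continuous_const hi).inter (isClosed_le hi continuous_const)))

theorem isOpen_So (q : ℕ × ℤ × ℤ) : IsOpen (So q) := by
  have hr : Continuous fun x : ℂ => x.re * 2 ^ q.1 := by fun_prop
  have hi : Continuous fun x : ℂ => x.im * 2 ^ q.1 := by fun_prop
  exact (isOpen_lt continuous_const hr).inter ((isOpen_lt hr continuous_const).inter
    ((isOpen_lt continuous_const hi).inter (isOpen_lt hi continuous_const)))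

theorem So_sub (q : ℕ × ℤ × ℤ) : So q ⊆ Sq q := fun _ h => ⟨h.1.le, h.2.1.le, h.2.2.1.le, h.2.2.2.le⟩

theorem So_of_Sq {q : ℕ × ℤ × ℤ} {x : ℂ} (h : x ∈ Sq q) (hr : x.re ∉ Dy) (hi : x.im ∉ Dy) :
    x ∈ So q := by
  obtain ⟨h1, h2, h3, h4⟩ := h
  refine ⟨lt_of_le_of_ne h1 fun he => hr ⟨q.1, q.2.1, he.symm⟩,
    lt_of_le_of_ne h2 fun he => hr ⟨q.1, q.2.1 + 1, by push_cast; exact he⟩,
    lt_of_le_of_ne h3 fun he => hi ⟨q.1, q.2.2, he.symm⟩,
    lt_of_le_of_ne h4 fun he => hi ⟨q.1, q.2.2 + 1, by push_cast; exact he⟩⟩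

theorem dist_Sq {q : ℕ × ℤ × ℤ} {x y : ℂ} (hx : x ∈ Sq q) (hy : y ∈ Sq q) :
    dist x y ≤ 2 / 2 ^ q.1 := by
  obtain ⟨h1, h2, h3, h4⟩ := hx
  obtain ⟨k1, k2, k3, k4⟩ := hy
  have hp : (0 : ℝ) < 2 ^ q.1 := by positivity
  have e1 : |(x - y).re| ≤ 1 / 2 ^ q.1 := by
    rw [le_div_iff₀ hp, ← abs_of_pos hp, ← abs_mul, abs_le, Complex.sub_re, sub_mul]
    constructor <;> linarith
  have e2 : |(x - y).im| ≤ 1 / 2 ^ q.1 := by
    rw [le_div_iff₀ hp, ← abs_of_pos hp, ← abs_mul, abs_le, Complex.sub_im, sub_mul]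
    constructor <;> linarith
  rw [dist_eq_norm]
  calc ‖x - y‖ ≤ |(x - y).re| + |(x - y).im| := Complex.norm_le_abs_re_add_abs_im _
    _ ≤ 1 / 2 ^ q.1 + 1 / 2 ^ q.1 := add_le_add e1 e2
    _ = 2 / 2 ^ q.1 := by ring

theorem convex_Sq (q : ℕ × ℤ × ℤ) : Convex ℝ (Sq q) := by
  intro x hx y hy a b ha hb hab
  obtain ⟨h1, h2, h3, h4⟩ := hx
  obtain ⟨k1, k2, k3, k4⟩ := hy
  have hre : (a • x + b • y).re * 2 ^ q.1 = a * (x.re * 2 ^ q.1) + b * (y.re * 2 ^ q.1) := by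
    simp; ring
  have him : (a • x + b • y).im * 2 ^ q.1 = a * (x.im * 2 ^ q.1) + b * (y.im * 2 ^ q.1) := by
    simp; ring
  have hc : ∀ c : ℝ, c = a * c + b * c := fun c => by rw [← add_mul, hab, one_mul]
  refine ⟨?_, ?_, ?_, ?_⟩
  · rw [hre, hc (q.2.1 : ℝ)]
    exact add_le_add (mul_le_mul_of_nonneg_left h1 ha) (mul_le_mul_of_nonneg_left k1 hb)
  · rw [hre, hc ((q.2.1 : ℝ) + 1)]
    exact add_le_add (mul_le_mul_of_nonneg_left h2 ha) (mul_le_mul_of_nonneg_left k2 hb)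
  · rw [him, hc (q.2.2 : ℝ)]
    exact add_le_add (mul_le_mul_of_nonneg_left h3 ha) (mul_le_mul_of_nonneg_left k3 hb)
  · rw [him, hc ((q.2.2 : ℝ) + 1)]
    exact add_le_add (mul_le_mul_of_nonneg_left h4 ha) (mul_le_mul_of_nonneg_left k4 hb)

/-- the intervals of length one containing a real number cover a neighbourhood -/
theorem near_int (s : ℝ) : ∀ᶠ t : ℝ in 𝓝 s, ∃ a : ℤ, ((a : ℝ) ≤ s ∧ s ≤ a + 1) ∧ (a : ℝ) ≤ t ∧
    t ≤ a + 1 := by
  have h1 : ∀ᶠ t : ℝ in 𝓝 s, t < ⌊s⌋ + 1 := eventually_lt_nhds (Int.lt_floor_add_one s)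
  have h2 : ∀ᶠ t : ℝ in 𝓝 s, (⌈s⌉ : ℝ) - 1 < t := eventually_gt_nhds (by
    have := Int.ceil_lt_add_one s
    linarith)
  filter_upwards [h1, h2] with t ht1 ht2
  rcases le_total s t with h | h
  · exact ⟨⌊s⌋, ⟨Int.floor_le s, (Int.lt_floor_add_one s).le⟩, (Int.floor_le s).trans h, ht1.le⟩
  · refine ⟨⌈s⌉ - 1, ⟨?_, ?_⟩, ?_, ?_⟩
    · have := Int.ceil_lt_add_one s
      push_cast; linarith
    · have := Int.le_ceil s
      push_cast; linarith
    · push_cast; linarith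
    · have := Int.le_ceil s
      push_cast; linarith

/-- the squares of one level containing a point cover a neighbourhood -/
theorem near_Sq (n : ℕ) (x : ℂ) : ∀ᶠ w in 𝓝 x, ∃ a b : ℤ, x ∈ Sq (n, a, b) ∧ w ∈ Sq (n, a, b) := by
  have hr : Tendsto (fun w : ℂ => w.re * 2 ^ n) (𝓝 x) (𝓝 (x.re * 2 ^ n)) :=
    (Complex.continuous_re.mul continuous_const).tendsto x
  have hi : Tendsto (fun w : ℂ => w.im * 2 ^ n) (𝓝 x) (𝓝 (x.im * 2 ^ n)) :=
    (Complex.continuous_im.mul continuous_const).tendsto x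
  filter_upwards [hr.eventually (near_int _), hi.eventually (near_int _)] with w h1 h2
  obtain ⟨a, ⟨ha1, ha2⟩, ha3, ha4⟩ := h1
  obtain ⟨b, ⟨hb1, hb2⟩, hb3, hb4⟩ := h2
  exact ⟨a, b, ⟨ha1, ha2, hb1, hb2⟩, ha3, ha4, hb3, hb4⟩

theorem finite_Sq (n : ℕ) (x : ℂ) : {p : ℤ × ℤ | x ∈ Sq (n, p.1, p.2)}.Finite := by
  refine ((Set.finite_Icc (⌈x.re * 2 ^ n⌉ - 1) ⌊x.re * 2 ^ n⌋).prod
    (Set.finite_Icc (⌈x.im * 2 ^ n⌉ - 1) ⌊x.im * 2 ^ n⌋)).subset ?_
  rintro ⟨a, b⟩ ⟨h1, h2, h3, h4⟩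
  simp only at h1 h2 h3 h4
  refine ⟨⟨?_, Int.le_floor.2 h1⟩, ⟨?_, Int.le_floor.2 h3⟩⟩
  · have := Int.ceil_le.2 (show x.re * 2 ^ n ≤ ((a + 1 : ℤ) : ℝ) by push_cast; exact h2)
    simp only; omega
  · have := Int.ceil_le.2 (show x.im * 2 ^ n ≤ ((b + 1 : ℤ) : ℝ) by push_cast; exact h4)
    simp only; omega

variable {k : ℕ}

/-- admissible squares with colour -/
def Adm (U : Fin k → Set ℂ) (T : ℂ → Set (Fin k)) (q : (ℕ × ℤ × ℤ) × Fin k) : Prop :=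
  (∀ y ∈ Sq q.1, ball y (4 / 2 ^ q.1.1) ⊆ U q.2) ∧ ∃ x ∈ Sq q.1, q.2 ∈ T x

/-- the pieces -/
def V (U : Fin k → Set ℂ) (T : ℂ → Set (Fin k)) (q : (ℕ × ℤ × ℤ) × Fin k) : Set ℂ :=
  {x | Adm U T q ∧ x ∈ So q.1 ∧ ∀ q', Adm U T q' → Encodable.encode q' < Encodable.encode q →
    x ∉ Sq q'.1}

/-- the new palettes -/
def T' (U : Fin k → Set ℂ) (T : ℂ → Set (Fin k)) (x : ℂ) : Set (Fin k) :=
  {i | x ∈ closure (⋃ q : ℕ × ℤ × ℤ, V U T (q, i))}

variable {U : Fin k → Set ℂ} {T : ℂ → Set (Fin k)}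

theorem isOpen_V (q : (ℕ × ℤ × ℤ) × Fin k) : IsOpen (V U T q) := by
  by_cases hq : Adm U T q
  · have h1 : V U T q = So q.1 ∩ (⋃ q' ∈ {q' | Adm U T q' ∧ Encodable.encode q' <
        Encodable.encode q}, Sq q'.1)ᶜ := by
      ext x
      simp only [V, hq, true_and, mem_ofPred_eq, mem_inter_iff, mem_compl_iff, mem_iUnion,
        not_exists]
      constructor
      · rintro ⟨h1, h2⟩
        exact ⟨h1, fun q' hq' hx => h2 q' hq'.1 hq'.2 hx⟩
      · rintro ⟨h1, h2⟩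
        exact ⟨h1, fun q' ha he hx => h2 q' ⟨ha, he⟩ hx⟩
    rw [h1]
    have hfin : {q' : (ℕ × ℤ × ℤ) × Fin k | Adm U T q' ∧ Encodable.encode q' <
        Encodable.encode q}.Finite := by
      refine Set.Finite.subset (Set.Finite.preimage (f := Encodable.encode)
        (Encodable.encode_injective.injOn) (Set.finite_lt_nat (Encodable.encode q))) ?_
      rintro q' ⟨-, h⟩
      exact h
    exact (isOpen_So _).inter (hfin.isClosed_biUnion fun _ _ => isClosed_Sq _).isOpen_compl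
  · have h1 : V U T q = ∅ := by
      ext x
      simp [V, hq]
    rw [h1]; exact isOpen_empty

theorem V_disj {q q' : (ℕ × ℤ × ℤ) × Fin k} {x : ℂ} (h : x ∈ V U T q) (h' : x ∈ V U T q') :
    q = q' := by
  rcases lt_trichotomy (Encodable.encode q) (Encodable.encode q') with h1 | h1 | h1
  · exact absurd (So_sub _ h.2.1) (h'.2.2 q h.1 h1)
  · exact Encodable.encode_injective h1
  · exact absurd (So_sub _ h'.2.1) (h.2.2 q' h'.1 h1)

theorem V_sub_U {q : ℕ × ℤ × ℤ} {i : Fin k} {x : ℂ} (h : x ∈ V U T (q, i)) : x ∈ U i :=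
  h.1.1 x (So_sub _ h.2.1) (mem_ball_self (by positivity))

theorem T'_V {q : ℕ × ℤ × ℤ} {i : Fin k} {x : ℂ} (h : x ∈ V U T (q, i)) : T' U T x = {i} := by
  ext j
  constructor
  · intro hj
    obtain ⟨y, hy, hy'⟩ := mem_closure_iff.1 hj _ (isOpen_V (q, i)) h
    obtain ⟨q', hq'⟩ := mem_iUnion.1 hy'
    have := V_disj hy hq'
    rw [Prod.mk.injEq] at this
    exact this.2.symm
  · rintro rfl
    exact subset_closure (mem_iUnion.2 ⟨q, h⟩)

/-- the admissible squares of a fine level -/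
theorem exists_level (h : Irr U T) {x : ℂ} (hx : x ∉ XX U) : ∃ n : ℕ, ∃ i, ∀ a b : ℤ,
    x ∈ Sq (n, a, b) → Adm U T ((n, a, b), i) := by
  obtain ⟨i, hi⟩ := h.ne x
  obtain ⟨r, hr, hb⟩ := Metric.isOpen_iff.1 (h.mx.isOpen i) x (h.off x hx i hi)
  obtain ⟨n, hn⟩ := exists_nat_gt (6 / r)
  refine ⟨n, i, fun a b hab => ⟨fun y hy => ?_, x, hab, hi⟩⟩
  refine Subset.trans ?_ hb
  refine ball_subset_ball' ?_
  have h2 : (n : ℝ) < 2 ^ n := by exact_mod_cast Nat.lt_two_pow_self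
  have hp : (0 : ℝ) < 2 ^ n := by positivity
  have h3 : 6 / (2 : ℝ) ^ n < r := by
    rw [div_lt_iff₀ hp]
    rw [div_lt_iff₀ hr] at hn
    nlinarith
  have h4 : dist y x ≤ 2 / 2 ^ n := dist_Sq hy hab
  have h5 : (4 : ℝ) / 2 ^ n + 2 / 2 ^ n = 6 / 2 ^ n := by ring
  simp only at h4 ⊢
  linarith

/-- off `XX U` the colours of `T'` come from squares containing the point -/
theorem T'_off (h : Irr U T) {x : ℂ} (hx : x ∉ XX U) {i : Fin k} (hi : i ∈ T' U T x) :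
    ∃ q : ℕ × ℤ × ℤ, Adm U T (q, i) ∧ x ∈ Sq q := by
  obtain ⟨n, c, hn⟩ := exists_level h hx
  obtain ⟨K, hK⟩ : ∃ K, ∀ a b : ℤ, x ∈ Sq (n, a, b) →
      Encodable.encode ((((n, a, b) : ℕ × ℤ × ℤ), c) : (ℕ × ℤ × ℤ) × Fin k) ≤ K := by
    obtain ⟨K, hK⟩ := ((finite_Sq n x).image fun p : ℤ × ℤ =>
      Encodable.encode ((((n, p.1, p.2) : ℕ × ℤ × ℤ), c) : (ℕ × ℤ × ℤ) × Fin k)).bddAbove
    exact ⟨K, fun a b hab => hK ⟨(a, b), hab, rfl⟩⟩
  have hfin : {q : ℕ × ℤ × ℤ | Encodable.encode ((q, i) : (ℕ × ℤ × ℤ) × Fin k) ≤ K}.Finite := by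
    refine Set.Finite.preimage (f := fun q : ℕ × ℤ × ℤ =>
      Encodable.encode ((q, i) : (ℕ × ℤ × ℤ) × Fin k)) (s := {m | m ≤ K}) ?_ (Set.finite_le_nat K)
    intro a _ b _ hab
    have := Encodable.encode_injective hab
    rw [Prod.mk.injEq] at this
    exact this.1
  have h1 : x ∈ closure (⋃ q ∈ {q : ℕ × ℤ × ℤ | Encodable.encode
      ((q, i) : (ℕ × ℤ × ℤ) × Fin k) ≤ K}, V U T (q, i)) := by
    rw [mem_closure_iff_frequently]
    have h2 : ∃ᶠ w in 𝓝 x, w ∈ ⋃ q : ℕ × ℤ × ℤ, V U T (q, i) := mem_closure_iff_frequently.1 hi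
    refine (h2.and_eventually (near_Sq n x)).mono ?_
    rintro w ⟨hw, a, b, hab, hwab⟩
    obtain ⟨q, hq⟩ := mem_iUnion.1 hw
    refine mem_iUnion₂.2 ⟨q, ?_, hq⟩
    by_contra hcon
    have hcon : ¬ Encodable.encode ((q, i) : (ℕ × ℤ × ℤ) × Fin k) ≤ K := hcon
    have h3 := hK a b hab
    exact hq.2.2 _ (hn a b hab) (by omega) hwab
  rw [hfin.closure_biUnion] at h1
  obtain ⟨q, -, hq⟩ := mem_iUnion₂.1 h1
  refine ⟨q, ?_, ?_⟩
  · obtain ⟨w, hw⟩ := (mem_closure_iff_frequently.1 hq).exists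
    exact hw.1
  · have h2 : V U T (q, i) ⊆ Sq q := fun w hw => So_sub _ hw.2.1
    exact (isClosed_Sq q).closure_subset_iff.2 h2 hq

/-- off `XX U` and off the lines the palette has one colour -/
theorem exists_V (h : Irr U T) {x : ℂ} (hx : x ∉ XX U) (hr : x.re ∉ Dy) (hi : x.im ∉ Dy) :
    ∃ q : ℕ × ℤ × ℤ, ∃ i, x ∈ V U T (q, i) := by
  classical
  obtain ⟨n, c, hn⟩ := exists_level h hx
  obtain ⟨a, b, hab, -⟩ := (near_Sq n x).self_of_nhds
  have hne : {m : ℕ | ∃ q : (ℕ × ℤ × ℤ) × Fin k, Adm U T q ∧ x ∈ Sq q.1 ∧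
      Encodable.encode q = m}.Nonempty := ⟨_, ((n, a, b), c), hn a b hab, hab, rfl⟩
  obtain ⟨m, ⟨⟨q, i⟩, hq, hxq, rfl⟩, hmin⟩ := WellFounded.has_min
    (r := ((· < ·) : ℕ → ℕ → Prop)) wellFounded_lt _ hne
  refine ⟨q, i, hq, So_of_Sq hxq hr hi, fun q' hq' hlt hxq' => ?_⟩
  exact hmin _ ⟨q', hq', hxq', rfl⟩ hlt

theorem dense_off : Dense {x : ℂ | x.re ∉ Dy ∧ x.im ∉ Dy} := by
  have h1 : Dense (Dyᶜ : Set ℝ) := countable_Dy.dense_compl ℝ
  intro x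
  rw [Metric.mem_closure_iff]
  intro ε hε
  obtain ⟨r, hr, hr'⟩ := Metric.mem_closure_iff.1 (h1 x.re) (ε / 2) (by positivity)
  obtain ⟨s, hs, hs'⟩ := Metric.mem_closure_iff.1 (h1 x.im) (ε / 2) (by positivity)
  refine ⟨⟨r, s⟩, ⟨hr, hs⟩, ?_⟩
  rw [dist_eq_norm]
  refine lt_of_le_of_lt (Complex.norm_le_abs_re_add_abs_im _) ?_
  rw [Real.dist_eq] at hr' hs'
  simp only [Complex.sub_re, Complex.sub_im]
  linarith

theorem dense_V (h : Irr U T) : Dense (⋃ i, ⋃ q : ℕ × ℤ × ℤ, V U T (q, i)) := by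
  have h1 : Dense ((⋃ i, U i) ∩ {x : ℂ | x.re ∉ Dy ∧ x.im ∉ Dy}) :=
    h.mx.dense.inter_of_isOpen_left dense_off (isOpen_iUnion h.mx.isOpen)
  refine h1.mono ?_
  rintro x ⟨hx, hr, hi⟩
  have hX : x ∉ XX U := by
    intro hcon
    obtain ⟨i, hi⟩ := mem_iUnion.1 hx
    exact hcon i hi
  obtain ⟨q, i, hq⟩ := exists_V h hX hr hi
  exact mem_iUnion.2 ⟨i, mem_iUnion.2 ⟨q, hq⟩⟩

/-- on `XX U` the new palettes are smaller -/
theorem T'_sub (h : Irr U T) {x : ℂ} (hx : x ∈ XX U) : T' U T x ⊆ T x := by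
  intro i hi
  by_contra hcon
  obtain ⟨ε, hε, hb⟩ := Metric.isOpen_iff.1 (h.closed i).isOpen_compl x hcon
  obtain ⟨w, hw, hwx⟩ := Metric.mem_closure_iff.1 hi (ε / 2) (by positivity)
  obtain ⟨q, hq⟩ := mem_iUnion.1 hw
  obtain ⟨y, hy, hyi⟩ := hq.1.2
  have hp : (0 : ℝ) < 2 ^ q.1 := by positivity
  have h1 : 4 / 2 ^ q.1 ≤ dist w x := by
    by_contra hlt
    push Not at hlt
    exact hx i (hq.1.1 w (So_sub _ hq.2.1) (by rw [mem_ball, dist_comm]; exact hlt))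
  have h2 : dist w y ≤ 2 / 2 ^ q.1 := dist_Sq (So_sub _ hq.2.1) hy
  have h3 : (2 : ℝ) / 2 ^ q.1 ≤ 4 / 2 ^ q.1 := by gcongr; norm_num
  refine hb (show y ∈ ball x ε from ?_) hyi
  rw [mem_ball]
  have h4 := dist_triangle y w x
  rw [dist_comm y w] at h4
  rw [dist_comm x w] at hwx
  linarith

/-- **Existence** -/
theorem irr_T' (h : Irr U T) : Irr U (T' U T) where
  mx := h.mx
  max := fun i x hx hf => h.max i x (by
    by_cases hX : x ∈ XX U
    · exact Or.inr (T'_sub h hX (hx.resolve_left fun h1 => h1 hX))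
    · exact Or.inl hX) hf
  closed := fun i => isClosed_closure
  ne := by
    intro x
    have h1 : x ∈ closure (⋃ i, ⋃ q : ℕ × ℤ × ℤ, V U T (q, i)) := dense_V h x
    rw [closure_iUnion_of_finite] at h1
    obtain ⟨i, hi⟩ := mem_iUnion.1 h1
    exact ⟨i, hi⟩
  sub := by
    intro x i hi
    refine closure_mono ?_ hi
    exact iUnion_subset fun q w hw => V_sub_U hw
  off := by
    intro x hx i hi
    obtain ⟨q, hq, hxq⟩ := T'_off h hx hi
    exact hq.1 x hxq (mem_ball_self (by positivity))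
  pure := by
    intro x i hi
    refine (mem_closure_iff_frequently.1 hi).mono fun w hw => ?_
    obtain ⟨q, hq⟩ := mem_iUnion.1 hw
    exact T'_V hq

end Soft

variable {k : ℕ} {U : Fin k → Set ℂ} {T : ℂ → Set (Fin k)}

/-- the points off `XX U` with at least two colours are on the dyadic lines -/
def Ln (U : Fin k → Set ℂ) (T : ℂ → Set (Fin k)) : Prop :=
  ∀ x, x ∉ XX U → 2 ≤ (T x).ncard → x.re ∈ Soft.Dy ∨ x.im ∈ Soft.Dy

theorem Soft.ln_T' (h : Irr U T) : Ln U (Soft.T' U T) := by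
  intro x hx h2
  by_contra hcon
  push Not at hcon
  obtain ⟨q, i, hq⟩ := Soft.exists_V h hx hcon.1 hcon.2
  rw [Soft.T'_V hq, Set.ncard_singleton] at h2
  omega

/-- germs which are connected stay connected -/
theorem Soft.ctn_T' (h : Irr U T) {z : ℂ} (hz : Ctn U T z) : Ctn U (Soft.T' U T) z := by
  have h' := Soft.irr_T' h
  by_cases hX : z ∈ XX U
  · obtain ⟨ε, hε, hb⟩ := Metric.eventually_nhds_iff.1 hz
    refine Metric.eventually_nhds_iff.2 ⟨ε / 2, by positivity, fun w hw c hc => ?_⟩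
    by_cases hwX : w ∈ XX U
    · exact hb (by linarith) c (Soft.T'_sub h hwX hc)
    · obtain ⟨q, hq, hwq⟩ := Soft.T'_off h hwX hc
      obtain ⟨y, hy, hyc⟩ := hq.2
      have h1 : 4 / 2 ^ q.1 ≤ dist w z := by
        by_contra hlt
        push Not at hlt
        exact hX c (hq.1 w hwq (by rw [mem_ball, dist_comm]; exact hlt))
      have h2 : dist y w ≤ 2 / 2 ^ q.1 := Soft.dist_Sq hy hwq
      have h3 : (2 : ℝ) / 2 ^ q.1 ≤ 4 / 2 ^ q.1 := by gcongr; norm_num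
      have h4 := dist_triangle y w z
      obtain ⟨Q, hQU, hQ, hzQ, hyQ⟩ := hb (y := y) (by linarith) c hyc
      refine ⟨Q ∪ Soft.Sq q, union_subset hQU ?_, hQ.union y hyQ hy
        (Soft.convex_Sq q).isPreconnected, Or.inl hzQ, Or.inr hwq⟩
      exact fun x hx => subset_closure (hq.1 x hx (mem_ball_self (by positivity)))
  · have h1 : ∀ c, ∀ᶠ w in 𝓝 z, c ∈ Soft.T' U T z → w ∈ U c := by
      intro c
      by_cases hc : c ∈ Soft.T' U T z
      · filter_upwards [(h.mx.isOpen c).mem_nhds (h'.off z hX c hc)] with w hw _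
        exact hw
      · exact Eventually.of_forall fun w hw => absurd hw hc
    obtain ⟨ε, hε, hb⟩ := Metric.eventually_nhds_iff.1 ((eventually_all.2 h1).and (h'.nhd z))
    refine Metric.eventually_nhds_iff.2 ⟨ε, hε, fun w hw c hc => ?_⟩
    have hcz : c ∈ Soft.T' U T z := (hb hw).2 hc
    exact ⟨ball z ε, fun x hx => subset_closure ((hb hx).1 c hcz),
      (convex_ball z ε).isPreconnected, mem_ball_self hε, hw⟩

/-- off `XX U` at most three colours, so the palettes with four colours are on `XX U` -/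
theorem Irr.ncard_off {U : Fin 6 → Set ℂ} {T : ℂ → Set (Fin 6)} (h : Irr U T) {x : ℂ}
    (hx : x ∉ XX U) : (T x).ncard ≤ 3 :=
  (Set.ncard_le_ncard (fun i hi => h.off x hx i hi) (Set.toFinite _)).trans (h.mx.K0_three x)

/-- **soft walls on lines**: for every irredundant cover there is one with smaller palettes on `XX U` in which
the points off `XX U` with at least two colours are on the dyadic lines -/
theorem Irr.exists_soft (h : Irr U T) : ∃ T', Irr U T' ∧ (∀ x ∈ XX U, T' x ⊆ T x) ∧ Ln U T' ∧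
    ∀ z, Ctn U T z → Ctn U T' z :=
  ⟨Soft.T' U T, Soft.irr_T' h, fun _ hx => Soft.T'_sub h hx, Soft.ln_T' h,
    fun _ hz => Soft.ctn_T' h hz⟩

/-! ### arcs -/

theorem Soft.countable_cos (c : ℝ) : {θ : ℝ | Real.cos θ = c}.Countable := by
  by_cases hne : ∃ θ₀, Real.cos θ₀ = c
  · obtain ⟨θ₀, h0⟩ := hne
    have h1 : {θ : ℝ | Real.cos θ = c} ⊆ (range fun k : ℤ => 2 * (k : ℝ) * Real.pi + θ₀) ∪
        range fun k : ℤ => 2 * (k : ℝ) * Real.pi - θ₀ := by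
      intro θ hθ
      have hθ : Real.cos θ = c := hθ
      rw [← h0, eq_comm, Real.cos_eq_cos_iff] at hθ
      obtain ⟨k, hk | hk⟩ := hθ
      · exact Or.inl ⟨k, hk.symm⟩
      · exact Or.inr ⟨k, hk.symm⟩
    exact ((countable_range _).union (countable_range _)).mono h1
  · push Not at hne
    have : {θ : ℝ | Real.cos θ = c} = ∅ := by
      ext θ; simpa using hne θ
    rw [this]; exact countable_empty

theorem Soft.countable_dy (x : ℂ) : {θ : ℝ | (x + cis θ).re ∈ Soft.Dy ∨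
    (x + cis θ).im ∈ Soft.Dy}.Countable := by
  have h1 : {θ : ℝ | (x + cis θ).re ∈ Soft.Dy} ⊆ ⋃ r ∈ Soft.Dy, {θ | Real.cos θ = r - x.re} := by
    intro θ hθ
    have hθ : (x + cis θ).re ∈ Soft.Dy := hθ
    refine mem_iUnion₂.2 ⟨_, hθ, ?_⟩
    show Real.cos θ = (x + cis θ).re - x.re
    rw [Complex.add_re, cis_re]; ring
  have h2 : {θ : ℝ | (x + cis θ).im ∈ Soft.Dy} ⊆ ⋃ r ∈ Soft.Dy,
      {θ | Real.cos (Real.pi / 2 - θ) = r - x.im} := by
    intro θ hθ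
    have hθ : (x + cis θ).im ∈ Soft.Dy := hθ
    refine mem_iUnion₂.2 ⟨_, hθ, ?_⟩
    show Real.cos (Real.pi / 2 - θ) = (x + cis θ).im - x.im
    rw [Complex.add_im, cis_im, Real.cos_pi_div_two_sub]; ring
  have h3 : (⋃ r ∈ Soft.Dy, {θ : ℝ | Real.cos θ = r - x.re}).Countable :=
    Soft.countable_Dy.biUnion fun r _ => Soft.countable_cos _
  have h4 : (⋃ r ∈ Soft.Dy, {θ : ℝ | Real.cos (Real.pi / 2 - θ) = r - x.im}).Countable := by
    refine Soft.countable_Dy.biUnion fun r _ => ?_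
    have h5 : {θ : ℝ | Real.cos (Real.pi / 2 - θ) = r - x.im} =
        (fun θ : ℝ => Real.pi / 2 - θ) ⁻¹' {θ | Real.cos θ = r - x.im} := rfl
    rw [h5]
    exact (Soft.countable_cos _).preimage_of_injOn fun a _ b _ hab => by
      have hab : Real.pi / 2 - a = Real.pi / 2 - b := hab
      linarith
  exact (h3.mono h1).union (h4.mono h2)

/-- an arc of a unit circle with constant palette, at least two colours, lies in `XX U` -/
theorem Ln.arc_XX (hl : Ln U T) (h : Irr U T) {x : ℂ} {θ₀ : ℝ}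
    (hc : ∀ᶠ θ in 𝓝 θ₀, T (x + cis θ) = T (x + cis θ₀)) (h2 : 2 ≤ (T (x + cis θ₀)).ncard) :
    ∀ᶠ θ in 𝓝 θ₀, x + cis θ ∈ XX U := by
  have hcont : Continuous fun θ : ℝ => x + cis θ := by
    have := continuous_cis
    fun_prop
  obtain ⟨N, hN, hNo, hθ⟩ := _root_.mem_nhds_iff.1 hc
  filter_upwards [hNo.mem_nhds hθ] with θ hθN
  by_contra hX
  have ho : IsOpen (N ∩ (fun θ : ℝ => x + cis θ) ⁻¹' (XX U)ᶜ) :=
    hNo.inter (h.mx.isClosed_XX.isOpen_compl.preimage hcont)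
  have hd : Dense ({θ : ℝ | (x + cis θ).re ∈ Soft.Dy ∨ (x + cis θ).im ∈ Soft.Dy}ᶜ : Set ℝ) :=
    (Soft.countable_dy x).dense_compl ℝ
  obtain ⟨v, ⟨hvN, hvX⟩, hv⟩ := hd.inter_open_nonempty _ ho ⟨θ, hθN, hX⟩
  have hvT : T (x + cis v) = T (x + cis θ₀) := hN hvN
  exact hv (hl _ hvX (by rw [hvT]; exact h2))

end Vale.Agent.P032.Six
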